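import Vale.Agent.P352G94.CV

/-!
# P352G94, row EXT: extension to Schwartz functions
-/

set_option linter.all false

open MeasureTheory Filter Topology
open scoped SchwartzMap ComplexConjugate ContDiff

namespace Vale.Agent.P352X.EG.NG

open Vale.Agent.P352X.EB

open Vale.Agent.P352 Vale.Agent.P352.GF Vale.Agent.P352.BW Vale.Agent.P352.H246
open UniformSpace (Completion)

noncomputable section

variable {D : Type*} [NormedAddCommGroup D] [InnerProductSpace ℂ D] {c : Cg D} [Nd c] {Λ : Type*}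
  {x : Lt c Λ}

namespace EXTr

open CVr

theorem sn_cont (m : ℕ) : Continuous fun f : Sch => sn m f := by
  simp only [Api4.sn_eq]
  exact ST.continuous_sn m

theorem sn_nn (m : ℕ) (f : Sch) : 0 ≤ sn m f := apply_nonneg _ _

theorem sn_zero (m : ℕ) : sn m (0 : Sch) = 0 := map_zero _

theorem snw_nil (m : ℕ) : snw m ([] : List (Λ × Sch)) = 1 := rfl

theorem snw_cons (m : ℕ) (q : Λ × Sch) (u : List (Λ × Sch)) :
    snw m (q :: u) = sn m q.2 * snw m u := by simp [snw]

theorem snw_append (m : ℕ) (p u : List (Λ × Sch)) : snw m (p ++ u) = snw m p * snw m u := by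
  simp [snw]

theorem snw_nn (m : ℕ) : ∀ u : List (Λ × Sch), 0 ≤ snw m u
  | [] => zero_le_one
  | q :: u => by rw [snw_cons]; exact mul_nonneg (sn_nn m _) (snw_nn m u)

/-- the cutoff in Schwartz space -/
def ct (R : ℕ) (f : Sch) : Sch := sch (cutf R (ev f))

/-- the cutoff of a word -/
def cw (R : ℕ) (u : List (Λ × Sch)) : List (Λ × Sch) := u.map fun q => (q.1, ct R q.2)

/-- the distance of two cutoffs of a word -/
def dl (m R R' : ℕ) : List (Λ × Sch) → ℝ
  | [] => 0
  | q :: u => sn m (ct R q.2 - ct R' q.2) * snw m (cw R u) + sn m (ct R' q.2) * dl m R R' u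

theorem ev_ct (t : E1 x) (R : ℕ) (f : Sch) : ev (ct R f) = cutf R (ev f) :=
  Ap.ev_sch (in_cut t R ⟨f, rfl⟩).1

theorem evw_cw (t : E1 x) (R : ℕ) (u : List (Λ × Sch)) : evw (cw R u) = cutw R (evw u) := by
  simp only [evw, cw, cutw, List.map_map]
  exact List.map_congr_left fun q _ => by simp [ev_ct t]

theorem cw_cw (t : E1 x) (R : ℕ) (u : List (Λ × Sch)) : CW (evw (cw R u)) := by
  intro p hp
  obtain ⟨q, hq, rfl⟩ := List.mem_map.1 hp
  obtain ⟨r, -, rfl⟩ := List.mem_map.1 hq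
  simp only [ev_ct t]
  exact in_cut t R ⟨r.2, rfl⟩

theorem cw_fst (R : ℕ) (u : List (Λ × Sch)) : (cw R u).map Prod.fst = u.map Prod.fst := by
  simp [cw, List.map_map, Function.comp_def]

theorem snw_lim (t : E1 x) (m : ℕ) :
    ∀ u : List (Λ × Sch), Tendsto (fun R => snw m (cw R u)) atTop (𝓝 (snw m u))
  | [] => tendsto_const_nhds
  | q :: u => by
    have h := (((sn_cont m).tendsto q.2).comp (t.ana.lim q.2)).mul (snw_lim t m u)
    rw [snw_cons]
    exact h.congr fun R => (snw_cons m (q.1, ct R q.2) (cw R u)).symm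

theorem dl_lim (t : E1 x) (m : ℕ) : ∀ u : List (Λ × Sch),
    Tendsto (fun R : ℕ × ℕ => dl m R.1 R.2 u) (atTop ×ˢ atTop) (𝓝 0)
  | [] => tendsto_const_nhds
  | q :: u => by
    have h1 : Tendsto (fun R : ℕ × ℕ => ct R.1 q.2) (atTop ×ˢ atTop) (𝓝 q.2) :=
      (t.ana.lim q.2).comp tendsto_fst
    have h2 : Tendsto (fun R : ℕ × ℕ => ct R.2 q.2) (atTop ×ˢ atTop) (𝓝 q.2) :=
      (t.ana.lim q.2).comp tendsto_snd
    have h3 := ((sn_cont m).tendsto _).comp (h1.sub h2)
    have h := (h3.mul ((snw_lim t m u).comp tendsto_fst)).add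
      ((((sn_cont m).tendsto _).comp h2).mul (dl_lim t m u))
    rw [sub_self, sn_zero, zero_mul, mul_zero, add_zero] at h
    exact h

theorem d1_ap' (o : OPS x) {v : Completion D} (hv : D1 c v) : ∀ u, CW u → D1 c (x.ap u v)
  | [], _ => hv
  | (a, f) :: u, h => o.mem a f _ (cw_cons.1 h).1 (d1_ap' o hv u (cw_cons.1 h).2)

theorem ap_lin (o : OPS x) (z : ℂ) {v w : Completion D} (hv : D1 c v) (hw : D1 c w) :
    ∀ u, CW u → x.ap u (v + z • w) = x.ap u v + z • x.ap u w
  | [], _ => rfl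
  | (a, f) :: u, h => by
    obtain ⟨h1, h2⟩ := cw_cons.1 h
    rw [ap_cons, ap_cons, ap_cons, ap_lin o z hv hw u h2,
      o.add a f _ _ h1 (d1_ap' o hv u h2) (o.d_smul z _ (d1_ap' o hw u h2)),
      o.smul a f z _ h1 (d1_ap' o hw u h2)]

theorem ap_append (p u : Wd Λ) (v : Completion D) : x.ap (p ++ u) v = x.ap p (x.ap u v) :=
  List.foldr_append

theorem evw_append (p u : List (Λ × Sch)) : evw (p ++ u) = evw p ++ evw u := List.map_append

theorem cw_append {p u : Wd Λ} (hp : CW p) (hu : CW u) : CW (p ++ u) := fun q hq =>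
  (List.mem_append.1 hq).elim (hp q) (hu q)

theorem in_sub {f g : Sch} (hf : In Set.univ (ev f)) (hg : In Set.univ (ev g)) :
    In Set.univ (ev (f - g)) :=
  ⟨⟨_, rfl⟩, HasCompactSupport.sub hf.2.1 hg.2.1, Set.subset_univ _⟩

theorem tele (t : E1 x) {ls : List Λ} {m : ℕ} {C : ℝ}
    (hC : ∀ u : List (Λ × Sch), u.map Prod.fst = ls → CW (evw u) →
      ‖x.ap (evw u) c.Om‖ ≤ C * snw m u) (R R' : ℕ) :
    ∀ u p : List (Λ × Sch), (p ++ u).map Prod.fst = ls → CW (evw p) →
      ‖x.ap (evw (p ++ cw R u)) c.Om - x.ap (evw (p ++ cw R' u)) c.Om‖ ≤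
        C * (snw m p * dl m R R' u)
  | [], p, _, _ => by simp [cw, dl]
  | q :: u, p, h, hp => by
    have i1 : In Set.univ (ev (ct R q.2)) := by rw [ev_ct t]; exact in_cut t R ⟨_, rfl⟩
    have i2 : In Set.univ (ev (ct R' q.2)) := by rw [ev_ct t]; exact in_cut t R' ⟨_, rfl⟩
    have i3 := in_sub i1 i2
    have hu := cw_cw t R u
    have hv := d1_ap t.ops _ hu
    have ih := tele t hC R R' u (p ++ [(q.1, ct R' q.2)]) (by simpa using h)
      (by rw [evw_append]; exact cw_append hp (cw_cons.2 ⟨i2, fun _ h => by simp [evw] at h⟩))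
    have h1 := hC (p ++ (q.1, ct R q.2 - ct R' q.2) :: cw R u)
      (by rw [← h]; simp [cw_fst]) (by rw [evw_append]; exact cw_append hp (cw_cons.2 ⟨i3, hu⟩))
    have e1 : x.op q.1 (ev (ct R q.2 - ct R' q.2)) (x.ap (evw (cw R u)) c.Om) =
        x.op q.1 (ev (ct R q.2)) (x.ap (evw (cw R u)) c.Om) +
          (-1 : ℂ) • x.op q.1 (ev (ct R' q.2)) (x.ap (evw (cw R u)) c.Om) := by
      rw [← t.ops.lin q.1 _ _ (-1) _ i1 i2 hv]
      congr 1
      funext y
      simp [ev, sub_eq_add_neg]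
    have e2 : x.ap (evw (p ++ (q.1, ct R q.2 - ct R' q.2) :: cw R u)) c.Om =
        x.ap (evw (p ++ cw R (q :: u))) c.Om -
          x.ap (evw (p ++ [(q.1, ct R' q.2)] ++ cw R u)) c.Om := by
      rw [List.append_assoc, evw_append, evw_append, evw_append, ap_append, ap_append, ap_append,
        sub_eq_add_neg (x.ap _ _), ← neg_one_smul ℂ (x.ap _ _)]
      exact (congrArg (x.ap (evw p)) e1).trans (ap_lin t.ops (-1) (t.ops.mem _ _ _ i1 hv)
        (t.ops.mem _ _ _ i2 hv) _ hp)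
    have e3 : p ++ [(q.1, ct R' q.2)] ++ cw R' u = p ++ cw R' (q :: u) := by simp [cw]
    rw [e2] at h1
    rw [e3] at ih
    refine (norm_sub_le_norm_sub_add_norm_sub _ _ _).trans ((add_le_add h1 ih).trans (le_of_eq ?_))
    simp only [snw_append, snw_cons, snw_nil, dl]
    ring

theorem lim0 (t : E1 x) (b : TMP x) (u : List (Λ × Sch)) :
    Tendsto (fun R => x.ap (cutw R (evw u)) c.Om) atTop (𝓝 (x.W (evw u))) := by
  obtain ⟨m, C, -, hC⟩ := b (u.map Prod.fst)
  refine CauchySeq.tendsto_limUnder ?_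
  rw [cauchySeq_iff_tendsto_dist_atTop_0, ← prod_atTop_atTop_eq]
  have h := (dl_lim t m u).const_mul C
  rw [mul_zero] at h
  refine squeeze_zero (fun _ => dist_nonneg) (fun R => ?_) h
  have := tele t hC R.1 R.2 u [] rfl fun _ h => by simp [evw] at h
  simp only [List.nil_append, snw_nil, one_mul, evw_cw t] at this
  rwa [dist_eq_norm]

theorem ex_evw {u : Wd Λ} (h : TW u) : ∃ U, evw U = u := by
  refine ⟨u.map fun q => (q.1, sch q.2), ?_⟩
  simp only [evw, List.map_map]
  conv_rhs => rw [← List.map_id u]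
  exact List.map_congr_left fun q hq => by simp [Ap.ev_sch (h q hq)]

theorem cut_ev (t : E1 x) : ∀ u : Wd Λ, CW u → ∀ᶠ R in atTop, cutw R u = u
  | [], _ => Eventually.of_forall fun _ => rfl
  | (a, f) :: u, h => by
    obtain ⟨h1, h2⟩ := cw_cons.1 h
    obtain ⟨r, hr⟩ := h1.2.1.isCompact.isBounded.subset_closedBall 0
    filter_upwards [cut_ev t u h2, eventually_ge_atTop ⌈r⌉₊] with R hR hR'
    have : cutf R f = f := t.ana.eq R f (hr.trans (Metric.closedBall_subset_closedBall (by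
      have := Nat.ceil_le.1 hR'
      linarith)))
    change (a, cutf R f) :: cutw R u = _
    rw [this, hR]

end EXTr

open EXTr in
theorem ext_row (t : E1 x) (b : TMP x) : EXT x := by
  have lim : ∀ u, TW u → Tendsto (fun R => x.ap (cutw R u) c.Om) atTop (𝓝 (x.W u)) := by
    intro u hu
    obtain ⟨U, rfl⟩ := ex_evw hu
    exact lim0 t b U
  refine ⟨lim, fun u hu => ?_, fun ls => ?_⟩
  · refine tendsto_nhds_unique (lim u (CVr.tw_of hu)) (tendsto_const_nhds.congr' ?_)
    exact (cut_ev t u hu).mono fun R hR => by simp only [hR]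
  · obtain ⟨m, C, h0, hC⟩ := b ls
    refine ⟨m, C, h0, fun u hu => ?_⟩
    refine le_of_tendsto_of_tendsto' (lim0 t b u).norm ((snw_lim t m u).const_mul C) fun R => ?_
    rw [← evw_cw t]
    exact hC _ ((cw_fst R u).trans hu) (cw_cw t R u)

end

end Vale.Agent.P352X.EG.NG
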