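import Vale.Agent.P352G94.Fin0
import Vale.Agent.P352G94.EXT
import Vale.Agent.P352G94.FS
import Vale.Agent.P352G5.OPS
import Vale.Agent.P352G6.Cov
import Vale.Agent.P352G9.TMP
import Vale.Agent.P352G26.XT
import Vale.Agent.P352G50.REC
import Vale.Agent.P352G62.DEN
import Vale.Agent.P352G75.LOC
import Vale.Agent.P352G87.Top3
import Vale.Agent.P352NA.MOM.R1

/-!
# P352G94: row FIN and the output of the graded net-only route
-/

set_option linter.all false

namespace Vale.Agent.P352X.EG.NG

open Vale.Agent.P352 Vale.Agent.P352.GF Vale.Agent.P352.BW Vale.Agent.P352.H246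
open Vale.Agent.P352.H496 Vale.Agent.P352.H755 Vale.Agent.P352.H15
open Vale.Agent.P352X.EB
open Vale.Agent.P352G (FinG NAG)

universe u

theorem fin_row {D : Type*} [NormedAddCommGroup D] [InnerProductSpace ℂ D] {c : Cg D} [Nd c] [NI c]
    (t : E2 c) (hM : MfAll c.Q) (hF : FSL c.Q) : FinG c.Q c.T c.Γ c.N := by
  have t1 : E1 (lx t.toE0 t.cov) := { t.toE0 with ops := ops_row t _ }
  have E := ext_row t1 (tmp_row t1 (jb_row t1))
  have w := wp_row t1 E
  have F := fs_row w
  have V' := cv_row t1 E w F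
  exact fin_of t hM E w F V' (rec_row t.toE0 F V') fun _ _ _ _ a b => str0 t.toE0 hM hF a b

theorem nag (D : Type u) [NormedAddCommGroup D] [InnerProductSpace ℂ D] : NAG D := by
  intro c _ _ hM hF
  have t := e0_thm c
  have hc := cov_row t hM hF
  have dn := dens_row t
  exact fin_row ⟨t, hc, wrd_row t hc dn NA.rig_row, loc_row t hc dn NA.rig_row⟩ hM hF

end Vale.Agent.P352X.EG.NG
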