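import Vale.Agent.P352G75.Lt
import Vale.Agent.P352X.Api2

/-!
# P352G94, row CV: covariance and relations of the new fields
-/

set_option linter.all false

open MeasureTheory Filter Topology
open scoped SchwartzMap ComplexConjugate ContDiff

namespace Vale.Agent.P352X.EG.NG

open Vale.Agent.P352X.EB

open Vale.Agent.P352 Vale.Agent.P352.GF Vale.Agent.P352.BW Vale.Agent.P352.H246
open Vale.Agent.P352.SubConf (IsAdj)
open UniformSpace (Completion)

noncomputable section

variable {D : Type*} [NormedAddCommGroup D] [InnerProductSpace ℂ D] {c : Cg D} [Nd c] {Λ : Type*}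
  {x : Lt c Λ}

namespace CVr

/-- the span of the words with compact support -/
def Cp (x : Lt c Λ) : Submodule ℂ (Completion D) :=
  Submodule.span ℂ {z | ∃ u, CW u ∧ z = x.ap u c.Om}

theorem ap_cons (a : Λ) (f : Fn) (u : Wd Λ) (v : Completion D) :
    x.ap ((a, f) :: u) v = x.op a f (x.ap u v) := rfl

theorem cw_cons {a : Λ} {f : Fn} {u : Wd Λ} : CW ((a, f) :: u) ↔ In Set.univ f ∧ CW u :=
  List.forall_mem_cons

theorem tw_cons {a : Λ} {f : Fn} {u : Wd Λ} : TW ((a, f) :: u) ↔ IsTest f ∧ TW u :=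
  List.forall_mem_cons

theorem tw_of {u : Wd Λ} (h : CW u) : TW u := fun p hp => (h p hp).1

theorem d1_ap (o : OPS x) : ∀ u, CW u → D1 c (x.ap u c.Om)
  | [], _ => o.d_vac
  | (a, f) :: u, h => o.mem a f _ (cw_cons.1 h).1 (d1_ap o u (cw_cons.1 h).2)

theorem d1 (o : OPS x) {v : Completion D} (hv : v ∈ Cp x) : D1 c v := by
  induction hv using Submodule.span_induction with
  | mem z hz => obtain ⟨u, hu, rfl⟩ := hz; exact d1_ap o u hu
  | zero => exact o.d_zero
  | add y z _ _ hy hz => exact o.d_add y z hy hz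
  | smul a y _ hy => exact o.d_smul a y hy

theorem op_zero (o : OPS x) (a : Λ) {f : Fn} (hf : In Set.univ f) : x.op a f 0 = 0 := by
  have := o.smul a f 0 0 hf o.d_zero
  rwa [zero_smul, zero_smul] at this

theorem op_mem (o : OPS x) (a : Λ) {f : Fn} (hf : In Set.univ f) {v : Completion D}
    (hv : v ∈ Cp x) : x.op a f v ∈ Cp x := by
  induction hv using Submodule.span_induction with
  | mem z hz =>
    obtain ⟨u, hu, rfl⟩ := hz
    exact Submodule.subset_span ⟨(a, f) :: u, cw_cons.2 ⟨hf, hu⟩, rfl⟩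
  | zero => rw [op_zero o a hf]; exact zero_mem _
  | add y z hy hz h1 h2 => rw [o.add a f y z hf (d1 o hy) (d1 o hz)]; exact add_mem h1 h2
  | smul s y hy h1 => rw [o.smul a f s y hf (d1 o hy)]; exact Submodule.smul_mem _ _ h1

theorem inv_U (s : SG c) (g : Sh c) (v : Completion D) : g.inv.U c (g.U c v) = v := by
  rw [s.U_inv]
  exact congrArg (fun L : Completion D →L[ℂ] Completion D => L v) (s.uni g).1

theorem U_inv (s : SG c) (g : Sh c) (v : Completion D) : g.U c (g.inv.U c v) = v := by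
  rw [s.U_inv]
  exact congrArg (fun L : Completion D →L[ℂ] Completion D => L v) (s.uni g).2

theorem inner_U (s : SG c) (g : Sh c) (y v : Completion D) :
    inner ℂ y (g.U c v) = inner ℂ (g.inv.U c y) v := by
  rw [s.U_inv, ContinuousLinearMap.star_eq_adjoint, ContinuousLinearMap.adjoint_inner_left]

theorem U_ap (t : E1 x) (g : Sh c) : ∀ u, CW u → g.U c (x.ap u c.Om) ∈ Cp x
  | [], h => by
    have : g.U c (x.ap [] c.Om) = x.ap [] c.Om := (t.sg.vac g).1
    rw [this]
    exact Submodule.subset_span ⟨[], h, rfl⟩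
  | (a, f) :: u, h => by
    have ih := U_ap t g u (cw_cons.1 h).2
    obtain ⟨n, κ, b, hb⟩ := x.cov a g.inv
    have h1 := t.ops.cov a g.inv n κ b f _ hb (cw_cons.1 h).1 (d1 t.ops ih)
    rw [inv_U t.sg] at h1
    rw [ap_cons, h1, map_sum]
    refine Submodule.sum_mem _ fun i _ => ?_
    rw [map_smul, U_inv t.sg]
    exact Submodule.smul_mem _ _ (op_mem t.ops _ (t.sg.inn g.inv Set.univ f (cw_cons.1 h).1) ih)

theorem U_mem (t : E1 x) (g : Sh c) {v : Completion D} (hv : v ∈ Cp x) : g.U c v ∈ Cp x := by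
  induction hv using Submodule.span_induction with
  | mem z hz => obtain ⟨u, hu, rfl⟩ := hz; exact U_ap t g u hu
  | zero => rw [map_zero]; exact zero_mem _
  | add y z _ _ h1 h2 => rw [map_add]; exact add_mem h1 h2
  | smul s y _ h1 => rw [map_smul]; exact Submodule.smul_mem _ _ h1

theorem le_Dn (e : EXT x) : Cp x ≤ x.Dn :=
  Submodule.span_mono fun _ ⟨u, hu, hz⟩ => ⟨u, tw_of hu, hz.trans (e.cw u hu).symm⟩

theorem in_cut (t : E1 x) (R : ℕ) {f : Fn} (hf : IsTest f) : In Set.univ (cutf R f) :=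
  ⟨(t.ana.inn R f hf).1, (t.ana.inn R f hf).2.1, Set.subset_univ _⟩

theorem Dn_le (t : E1 x) (e : EXT x) : x.Dn ≤ (Cp x).topologicalClosure := by
  refine Submodule.span_le.2 ?_
  rintro _ ⟨u, hu, rfl⟩
  refine mem_closure_of_tendsto (e.lim u hu) (Eventually.of_forall fun R => ?_)
  refine Submodule.subset_span ⟨cutw R u, fun p hp => ?_, rfl⟩
  obtain ⟨q, hq, rfl⟩ := List.mem_map.1 hp
  exact in_cut t R (hu q hq)

theorem o_eq (t : E1 x) (e : EXT x) (fs : FS x) (a : Λ) {f : Fn} (hf : In Set.univ f)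
    {v : Completion D} (hv : v ∈ Cp x) :
    (x.o a f ⟨v, le_Dn e hv⟩ : Completion D) = x.op a f v := by
  induction hv using Submodule.span_induction with
  | mem z hz =>
    obtain ⟨u, hu, rfl⟩ := hz
    rw [fs.oW a f u _ hf.1 (tw_of hu) (e.cw u hu).symm, e.cw _ (cw_cons.2 ⟨hf, hu⟩), ap_cons]
  | zero =>
    have := fs.smul a f 0 0
    rw [zero_smul, zero_smul] at this
    rw [op_zero t.ops a hf]
    exact congrArg Subtype.val this
  | add y z hy hz h1 h2 =>
    rw [t.ops.add a f y z hf (d1 t.ops hy) (d1 t.ops hz), ← h1, ← h2]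
    exact congrArg Subtype.val (fs.add a f ⟨y, le_Dn e hy⟩ ⟨z, le_Dn e hz⟩)
  | smul s y hy h1 =>
    rw [t.ops.smul a f s y hf (d1 t.ops hy), ← h1]
    exact congrArg Subtype.val (fs.smul a f s ⟨y, le_Dn e hy⟩)

theorem adj (fs : FS x) (a : Λ) {f : Fn} (hf : IsTest f) (y v : x.Dn) :
    inner ℂ (x.o a f v : Completion D) (y : Completion D) =
      inner ℂ (v : Completion D) (x.o (x.dag a) (bar f) y : Completion D) :=
  fs.herm a f v y hf

/-- covariance on the words with compact support -/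
theorem cov0 (t : E1 x) (e : EXT x) (fs : FS x) (a : Λ) (g : Sh c) {n : ℕ} (κ : Fin n → ℂ)
    (b : Fin n → Λ) (hc : x.Cv a g κ b) {f : Fn} (hf : IsTest f) {v : Completion D}
    (hv : v ∈ Cp x) : (x.o a f ⟨g.U c v, le_Dn e (U_mem t g hv)⟩ : Completion D) =
      ∑ i, κ i • g.U c (x.o (b i) (g.pull f) ⟨v, le_Dn e hv⟩) := by
  obtain ⟨F, rfl⟩ := hf
  obtain ⟨P, hP⟩ := t.sg.clm g
  have c1 : Continuous fun F : Sch =>
      (x.o a (ev F) ⟨g.U c v, le_Dn e (U_mem t g hv)⟩ : Completion D) :=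
    continuous_subtype_val.comp (fs.cont a _)
  have c2 : Continuous fun F : Sch =>
      ∑ i, κ i • g.U c (x.o (b i) (g.pull (ev F)) ⟨v, le_Dn e hv⟩) := by
    refine continuous_finset_sum _ fun i _ => ?_
    simp only [← hP]
    exact ((g.U c).continuous.comp (continuous_subtype_val.comp
      ((fs.cont (b i) _).comp P.continuous))).const_smul (κ i)
  refine tendsto_nhds_unique ((c1.tendsto F).comp (t.ana.lim F))
    (((c2.tendsto F).comp (t.ana.lim F)).congr fun R => ?_)
  have h1 := in_cut t R (f := ev F) ⟨F, rfl⟩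
  simp only [Function.comp_apply]
  rw [Ap.ev_sch h1.1, o_eq t e fs a h1 (U_mem t g hv), t.ops.cov a g n κ b _ v hc h1 (d1 t.ops hv)]
  exact Finset.sum_congr rfl fun i _ => by
    rw [o_eq t e fs (b i) (t.sg.inn g Set.univ _ h1) hv]

theorem eq_zero {z : Completion D} (hz : z ∈ (Cp x).topologicalClosure)
    (h : ∀ y ∈ Cp x, inner ℂ z y = 0) : z = 0 := by
  have h1 : IsClosed {y : Completion D | inner ℂ z y = 0} :=
    isClosed_eq (by fun_prop) continuous_const
  exact inner_self_eq_zero.1 (closure_minimal (fun y hy => h y hy) h1 hz)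

theorem cov (t : E1 x) (e : EXT x) (fs : FS x) (a : Λ) (g : Sh c) {n : ℕ} (κ : Fin n → ℂ)
    (b : Fin n → Λ) {f : Fn} (v w : x.Dn) (hc : x.Cv a g κ b) (hf : IsTest f)
    (hw : (w : Completion D) = g.U c v) :
    (x.o a f w : Completion D) = ∑ i, κ i • g.U c (x.o (b i) (g.pull f) v) := by
  have hU : ∀ z ∈ (Cp x).topologicalClosure, g.U c z ∈ (Cp x).topologicalClosure := fun z hz =>
    map_mem_closure (g.U c).continuous hz fun y hy => U_mem t g hy
  refine sub_eq_zero.1 (eq_zero (x := x) (sub_mem (Dn_le t e (x.o a f w).2)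
    (Submodule.sum_mem _ fun i _ => Submodule.smul_mem _ _ (hU _ (Dn_le t e (x.o _ _ v).2))))
    fun y hy => ?_)
  have hy' := U_mem t g.inv hy
  have key : ∀ (v w : x.Dn), (w : Completion D) = g.U c v →
      inner ℂ ((x.o a f w : Completion D) - ∑ i, κ i • g.U c (x.o (b i) (g.pull f) v)) y =
      inner ℂ (g.U c v) (x.o (x.dag a) (bar f) ⟨y, le_Dn e hy⟩ : Completion D) -
        ∑ i, conj (κ i) * inner ℂ (v : Completion D)
          (x.o (x.dag (b i)) (bar (g.pull f)) ⟨g.inv.U c y, le_Dn e hy'⟩ : Completion D) := by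
    intro v w hw
    rw [inner_sub_left, adj fs a hf ⟨y, le_Dn e hy⟩ w, hw, sum_inner]
    congr 1
    refine Finset.sum_congr rfl fun i _ => ?_
    rw [inner_smul_left, ← adj fs (b i) (t.sg.test g f hf), ← inner_conj_symm, inner_U t.sg,
      inner_conj_symm]
  rw [key v w hw]
  have h1 : IsClosed {v : Completion D |
      inner ℂ (g.U c v) (x.o (x.dag a) (bar f) ⟨y, le_Dn e hy⟩ : Completion D) -
        ∑ i, conj (κ i) * inner ℂ v
          (x.o (x.dag (b i)) (bar (g.pull f)) ⟨g.inv.U c y, le_Dn e hy'⟩ : Completion D) = 0} :=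
    isClosed_eq (by fun_prop) continuous_const
  refine closure_minimal (fun z hz => ?_) h1 (Dn_le t e v.2)
  have := key ⟨z, le_Dn e hz⟩ ⟨g.U c z, le_Dn e (U_mem t g hz)⟩ rfl
  rw [cov0 t e fs a g κ b hc hf hz, sub_self, inner_zero_left] at this
  exact this.symm

theorem U_W (t : E1 x) (e : EXT x) (w : WP x) (fs : FS x) (g : Sh c) :
    ∀ u, TW u → g.U c (x.W u) ∈ x.Dn
  | [], _ => by rw [w.nil, (t.sg.vac g).1]; exact fs.vac
  | (a, f) :: u, h => by
    have ih := U_W t e w fs g u (tw_cons.1 h).2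
    have hm : x.W u ∈ x.Dn := Submodule.subset_span ⟨u, (tw_cons.1 h).2, rfl⟩
    obtain ⟨n, κ, b, hb⟩ := x.cov a g.inv
    have h1 := cov t e fs a g.inv κ b ⟨_, ih⟩ ⟨_, hm⟩ hb (tw_cons.1 h).1
      (inv_U t.sg g _).symm
    rw [← fs.oW a f u ⟨_, hm⟩ (tw_cons.1 h).1 (tw_cons.1 h).2 rfl, h1, map_sum]
    refine Submodule.sum_mem _ fun i _ => ?_
    rw [map_smul, U_inv t.sg]
    exact Submodule.smul_mem _ _ (x.o _ _ _).2

end CVr

open CVr in
theorem cv_row (t : E1 x) (e : EXT x) (w : WP x) (fs : FS x) : CV x where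
  mem g v hv := by
    induction hv using Submodule.span_induction with
    | mem z hz => obtain ⟨u, hu, rfl⟩ := hz; exact U_W t e w fs g u hu
    | zero => rw [map_zero]; exact zero_mem _
    | add y z _ _ h1 h2 => rw [map_add]; exact add_mem h1 h2
    | smul s y _ h1 => rw [map_smul]; exact Submodule.smul_mem _ _ h1
  cov a g n κ b f v w hc hf hw := cov t e fs a g κ b v w hc hf hw
  zero n κ b f v hf h0 := by
    set y : x.Dn := ∑ i, κ i • x.o (b i) (f i) v with hy
    have key : ∀ v : x.Dn, inner ℂ ((∑ i, κ i • x.o (b i) (f i) v : x.Dn) : Completion D)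
        (y : Completion D) = ∑ i, conj (κ i) * inner ℂ (v : Completion D)
          (x.o (x.dag (b i)) (bar (f i)) y : Completion D) := by
      intro v
      rw [Submodule.coe_sum, sum_inner]
      refine Finset.sum_congr rfl fun i _ => ?_
      rw [Submodule.coe_smul, inner_smul_left, adj fs (b i) (hf i).1]
    have h1 : IsClosed {v : Completion D | ∑ i, conj (κ i) * inner ℂ v
        (x.o (x.dag (b i)) (bar (f i)) y : Completion D) = 0} :=
      isClosed_eq (by fun_prop) continuous_const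
    have h2 : ∑ i, conj (κ i) * inner ℂ (v : Completion D)
        (x.o (x.dag (b i)) (bar (f i)) y : Completion D) = 0 := by
      refine closure_minimal (fun z hz => ?_) h1 (Dn_le t e v.2)
      have h3 := key ⟨z, le_Dn e hz⟩
      have h4 : ((∑ i, κ i • x.o (b i) (f i) ⟨z, le_Dn e hz⟩ : x.Dn) : Completion D) = 0 := by
        rw [Submodule.coe_sum, ← t.ops.zero n κ b f z hf h0 (d1 t.ops hz)]
        exact Finset.sum_congr rfl fun i _ => by
          rw [Submodule.coe_smul, o_eq t e fs (b i) (hf i) hz]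
      rw [h4, inner_zero_left] at h3
      exact h3.symm
    rw [← key v, ← hy] at h2
    exact Subtype.ext (inner_self_eq_zero.1 h2)

end

end Vale.Agent.P352X.EG.NG
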