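import Vale.Agent.P352G75.LB
import Vale.Agent.P352G87.Top1
import Vale.Agent.P352G60.AFW
import Vale.Agent.P352X.EH.FIN
import Vale.Agent.P352X.EH.LET

/-!
# P352G94, row FIN: the graded extension with the local potential, from the rows
-/

set_option linter.all false

open MeasureTheory Filter Topology
open scoped SchwartzMap ComplexConjugate ContDiff

namespace Vale.Agent.P352X.EG.NG

open Vale.Agent.P352 Vale.Agent.P352.GF Vale.Agent.P352.BW Vale.Agent.P352.H246
open Vale.Agent.P352.H496 Vale.Agent.P352.H755 Vale.Agent.P352.H15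
open Vale.Agent.P352.SubConf (IsAdj)
open Vale.Agent.P352X.EB
open Vale.Agent.P352NA (Cyc)
open Vale.Agent.P352X.EB.NA (cs cs_dense ext_C cyc_vac cyc_fld)
open Vale.Agent.P352G (ExtF FinG cyc_G)
open UniformSpace (Completion)

noncomputable section

variable {D : Type*} [NormedAddCommGroup D] [InnerProductSpace ℂ D] {c : Cg D} [Nd c] [NI c]

/-- the letters -/
def lx (t : E0 c) (hc : COV c) : Lt c (H.Lab c) where
  dag := H.Le.dg
  φ := H.Le.ph c.l
  p := H.Le.pr
  dag2 := by rintro (_ | p) <;> rfl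
  pdag := by rintro (_ | p) <;> rfl
  par := by
    rintro (_ | p) f h0
    · exact (c.hl.gam f h0).trans (one_smul _ _).symm
    · exact t.bas.pvac p.e _ f (lb_par p).1 h0
  lin := by
    rintro (_ | p) f g z h1 h2
    · exact c.hl.lin f g z h1 h2
    · show ((_ : D) : Completion D) = (_ : D) + z • ((_ : D) : Completion D)
      rw [c.Q.lin _ f g z _ (lb_fld p).1 h1 h2, Completion.coe_add, Completion.coe_smul]
  cont := by
    rintro (_ | p)
    exacts [c.hl.cont, (Completion.continuous_coe D).comp (c.Q.cont _ _ (lb_fld p).1)]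
  ty := by
    rintro (_ | p)
    exacts [⟨true, fun K f h => ⟨f, h, rfl⟩⟩,
      ⟨false, fun K f h => Tr.fld _ _ f (lb_fld p).1 (lb_fld p).2 p.a h⟩]
  tp := by
    rintro (_ | p) K f h
    exacts [.inl ⟨rfl, f, h, rfl⟩,
      .inr ⟨p.B, p.B', f, (lb_fld p).1, (lb_fld p).2, p.a, (lb_par p).1, h, rfl⟩]
  cov := by
    rintro (_ | p) g
    · refine ⟨1, fun _ => ((g.s ^ 2 : ℝ) : ℂ), fun _ => none, fun f h0 => ?_⟩
      rw [Fin.sum_univ_one, Complex.conj_ofReal]
      exact pot t g h0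
    · obtain ⟨_, n, q, κ, -, h2⟩ := hc _ _ (lb_fld p).1 (lb_fld p).2 p.a
      exact ⟨n, κ g, fun i => some (q i), fun f h0 => (h2 g f h0).2⟩
  tra := by
    rintro (_ | p) y f h0
    · simpa using! c.hl.cov 1 GF.one y f one_pos H496.isLor_one h0
    · exact Let.tra t (lb_fld p).1 y h0
  dil := by
    rintro (_ | p)
    · refine ⟨2, 1, fun _ => none, fun s hs => ⟨fun _ => ((s ^ 2 : ℝ) : ℂ),
        fun _ => by simp [abs_of_pos (one_pos.trans_le hs)], fun f h0 => ?_⟩⟩
      rw [Fin.sum_univ_one, Complex.conj_ofReal]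
      exact c.hl.cov s GF.one 0 f (one_pos.trans_le hs) H496.isLor_one h0
    · obtain ⟨e, n, q, κ, h3, h2⟩ := hc _ _ (lb_fld p).1 (lb_fld p).2 p.a
      exact ⟨e, n, fun i => some (q i), fun s hs =>
        let g : Sh c := ⟨⟨s, GF.one, 0, one_pos.trans_le hs, H496.isLor_one⟩, false⟩
        ⟨κ g, h3 g hs rfl, fun f h0 => (h2 g f h0).2⟩⟩

namespace Fin94

omit [NI c]

variable {Λ : Type*} {x : Lt c Λ}

theorem ud (v : CV x) {s : ℝ} {L : Ix → V} (hs : 0 < s) (hL : IsLor L) (a : V) (w : x.Dn) :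
    (x.Ud s L a w : Completion D) = Ug c.Q s L a w := by
  have h : Ug c.Q s L a w ∈ x.Dn := v.mem ⟨⟨s, L, a, hs, hL⟩, false⟩ w w.2
  rw [Lt.Ud, dif_pos h]

theorem fs_one {P : Λ → Prop} {a : Λ} (h : P a) : x.Fs P (x.o a) :=
  ⟨1, fun _ => a, fun _ => h, by simp⟩

theorem gd (s : SG c) (v : CV x) (w : x.Dn) : (x.Gd w : Completion D) = c.Γ w := by
  have h := v.mem (Sh.gm c true) w w.2
  rw [(s.gm true).1] at h
  rw [Lt.Gd, dif_pos (show c.Γ w ∈ x.Dn from h)]

theorem par (s : SG c) (v : CV x) (a : Λ) {f : Fn} (hf : IsTest f) (w : x.Dn) :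
    (x.o a f (x.Gd w) : Completion D) = sg (x.p a) • c.Γ (x.o a f w) := by
  have e : ∀ g, (Sh.gm c true).pull g = g := fun g => funext fun y => congrArg g ((s.gm true).2 y)
  have := v.cov a (Sh.gm c true) 1 (fun _ => sg (x.p a)) (fun _ => a) f w (x.Gd w)
    (fun g hg => by
      rw [Fin.sum_univ_one, e, (s.gm true).1]
      show _ = _ • c.Γ _
      rw [x.par _ g hg, x.pdag]
      cases x.p a <;> simp [sg]) hf (by rw [gd s v, (s.gm true).1]; rfl)
  rwa [Fin.sum_univ_one, e, (s.gm true).1] at this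

end Fin94

omit [NI c] in
/-- the extension of the field `B` -/
def ee (x : Lt c (H.Lab c)) (B : Fld D) : Fld x.Dn := fun f v =>
  ∑ i, x.o (some ((H.Fin2.dec c B).2 i)) f v

/-- row XT as a statement -/
def STR0 (c : Cg D) [Nd c] : Prop := ∀ (D' : Submodule ℂ (Completion D)) (Q' : Theory D')
  (G' : D' → D') (e : Fld D → Fld D'), ExtF c.Q c.Γ Q' G' e → (∀ A, Q'.fld A →
    ∃ (n : ℕ) (B : Fin n → Fld D), (∀ i, c.Q.fld (B i)) ∧
      ∀ f v, IsTest f → A f v = ∑ i, e (B i) f v) → Q'.IsStress fun m n => e (c.T m n)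

open Fin' in
theorem fin_of (t : E2 c) (hM : MfAll c.Q) (E : EXT (lx t.toE0 t.cov)) (w : WP (lx t.toE0 t.cov))
    (F : FS (lx t.toE0 t.cov)) (V' : CV (lx t.toE0 t.cov)) (r : REC (lx t.toE0 t.cov))
    (hS : STR0 c) : FinG c.Q c.T c.Γ c.N := by
  let x := lx t.toE0 t.cov
  have sp := @H.Fin2.dec_spec D _ _ c (H.md t.toE0 hM)
  have gd := Fin94.gd t.sg V'
  have h2 : ∀ p : H.Lb c, x.Is (some p) p.B p.B' := fun p =>
    ⟨(lb_fld p).1, (lb_fld p).2, p.a, fun _ _ => ⟨rfl, rfl⟩⟩
  have sa : ∀ (B B' : Fld D) n (q : Fin n → H.Lb c), IsAdj B B' →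
      (∀ f v, IsTest f → B f v = ∑ i, (q i).B f v) → ∀ f u, IsTest f →
      B' (bar f) u = ∑ i, (q i).B' (bar f) u := fun B B' n q hA h f u hf =>
    ext_inner_left ℂ fun y => by
      rw [← hA f y u hf, h f y hf, sum_inner, inner_sum]
      exact Finset.sum_congr rfl fun i _ => (q i).a f y u hf
  have adj0 : ∀ (B B' : Fld D) n (q : Fin n → H.Lb c), IsAdj B B' →
      (∀ f v, IsTest f → B f v = ∑ i, (q i).B f v) → ∀ f (v : x.Dn) (u : D), IsTest f →
      Cyc c.Q u → inner ℂ ((∑ i, x.o (some (q i)) f v : x.Dn) : Completion D) (u : Completion D) =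
        inner ℂ (v : Completion D) (B' (bar f) u : Completion D) := by
    intro B B' n q hA h f v u hf hu
    rw [sa B B' n q hA h f u hf, coe_sum, inner_sum, Submodule.coe_sum, sum_inner]
    exact Finset.sum_congr rfl fun i _ => F.aff _ _ _ f v u (h2 _) hf hu
  have adj : ∀ B B' f (v : x.Dn) (u : D), c.Q.fld B → IsAdj B B' → IsTest f → Cyc c.Q u →
      inner ℂ (ee x B f v : Completion D) (u : Completion D) =
        inner ℂ (v : Completion D) (B' (bar f) u : Completion D) :=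
    fun B B' f v u hB hA hf hu => adj0 B B' _ _ hA (sp hB) f v u hf hu
  have eqs : ∀ (B : Fld D) n (q : Fin n → H.Lb c), c.Q.fld B →
      (∀ f v, IsTest f → B f v = ∑ i, (q i).B f v) → ∀ f (v : x.Dn), IsTest f →
      ee x B f v = ∑ i, x.o (some (q i)) f v := fun B n q hB h f v hf => by
    obtain ⟨B', -, hA⟩ := c.Q.adj B hB
    exact ext_C c.Q fun y hy => by rw [adj B B' f v y hB hA hf hy, adj0 B B' n q hA h f v y hf hy]
  have eq : ∀ (p : H.Lb c) f v, IsTest f → x.o (some p) f v = ee x p.B f v := fun p f v hf => by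
    rw [eqs p.B 1 (fun _ => p) (lb_fld p).1 (fun _ _ _ => by simp) f v hf, Fin.sum_univ_one]
  have agree : ∀ B f (v : x.Dn) (u : D), c.Q.fld B → IsTest f → Cyc c.Q u →
      (v : Completion D) = u → (ee x B f v : Completion D) = (B f u : D) := by
    intro B f v u hB hf hu e
    obtain ⟨B', -, hA⟩ := c.Q.adj B hB
    refine (cs_dense c.Q).eq_of_inner_left ℂ fun y => ?_
    rw [adj B B' f v y hB hA hf y.2, e, Completion.inner_coe, Completion.inner_coe, hA f u y hf]
  have cyc : ∀ S : Submodule ℂ x.Dn, (∀ v : x.Dn, (v : Completion D) = c.Om → v ∈ S) →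
      (∀ p f v, IsTest f → v ∈ S → x.o (some p) f v ∈ S) → ∀ u, Cyc c.Q u →
      ∃ v ∈ S, (v : Completion D) = u := fun S a1 a2 u hu =>
    (hu (cs c.Q ⊓ (S.map x.Dn.subtype).comap
      (Completion.toComplL : D →L[ℂ] Completion D).toLinearMap)
      ⟨cyc_vac, ⟨c.Om, F.vac⟩, a1 _ rfl, rfl⟩ (by
        rintro B f u hB hf ⟨h, v, hv, e⟩
        exact ⟨cyc_fld hB hf h, ee x B f v, S.sum_mem fun i _ => a2 _ f v hf hv,
          agree B f v u hB hf h e⟩)).2
  have cyc' : ∀ P : H.Lab c → Prop, (∀ p, P (some p)) → ∀ S : Submodule ℂ x.Dn,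
      (∀ v : x.Dn, (v : Completion D) = c.Om → v ∈ S) →
      (∀ a f v, P a → IsTest f → v ∈ S → x.o a f v ∈ S) → Dense (S : Set x.Dn) :=
    fun P hP S a1 a2 v => by
      rw [closure_subtype]
      refine closure_mono ?_ (cs_dense c.Q v)
      rintro _ ⟨u, rfl⟩
      exact cyc S a1 (fun p f v hf hv => a2 _ f v (hP p) hf hv) u u.2
  have ud := fun s L a v hs hL => Fin94.ud V' (s := s) (L := L) hs hL a v
  have ex : ∀ (P : H.Lab c → Prop) (Q' : Theory x.Dn), (∀ p, P (some p)) →
      (Q'.vac : Completion D) = c.Om → Q'.U = x.Ud → (∀ B, Q'.fld B ↔ x.Fs P B) →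
      (∀ B, Q'.bose B ↔ x.Fs P B ∧ ∀ f v, IsTest f → B f (x.Gd v) = x.Gd (B f v)) →
      Gr Q' x.Gd → ExtF c.Q c.Γ Q' x.Gd (ee x) := fun P Q' hP a1 a2 a3 a4 a5 =>
    ⟨a5, fun u hu =>
        let ⟨v, _, e⟩ := cyc ⊤ (fun _ _ => trivial) (fun _ _ _ _ _ => trivial) u hu; e ▸ v.2,
      a1, gd, fun s L a v hs hL => by rw [a2, ud s L a v hs hL, Ug_apply _ hs hL],
      fun B _ => (a3 _).2 ⟨_, _, fun i => hP _, rfl⟩, fun B hB => (a4 _).2
        ⟨⟨_, _, fun i => hP _, rfl⟩, fun f v hf => ext_C c.Q fun y hy => by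
          have hB1 := c.Q.bose_fld _ hB
          obtain ⟨B', -, hA⟩ := c.Q.adj B hB1
          have pa := t.bas.padj false B B' hA (fun f v hf =>
            (c.hN.bose B f v hB hf).trans (one_smul _ _).symm) _ y (Ap.test_bar hf)
          rw [show sg false = 1 from rfl, one_smul] at pa
          rw [adj B B' f _ y hB1 hA hf hy, gd, gd, ← t.sg.gs, star_inner, star_inner,
            c.hN.ext, c.hN.ext, adj B B' f _ _ hB1 hA hf (cyc_G hy), pa]⟩,
      fun B B' a b d f v u hf => by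
        let q := (H.Fin2.dec c B).2
        rw [eqs B' _ (fun i => ⟨(q i).B', (q i).B, (q i).e, (q i).h', (q i).h, (q i).a', (q i).a⟩) b
          (fun g y hg => by
            have := sa B B' _ q d (sp a) (bar g) y (Ap.test_bar hg)
            rwa [Ap.bar_bar] at this) _ u (Ap.test_bar hf), ee, sum_inner, inner_sum]
        exact Finset.sum_congr rfl fun i _ => F.herm _ f v u hf, agree⟩
  obtain ⟨Q0, a1, a2, a3, a4, a5⟩ := r (· ≠ none) (fun a ha => by
    cases a with
    | none => exact absurd rfl ha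
    | some p => exact Option.some_ne_none _) (cyc' _ fun p => Option.some_ne_none p)
  obtain ⟨Q1, b1, b2, b3, b4, b5⟩ := r (fun _ => True) (fun _ _ => trivial) (cyc' _ fun _ => trivial)
  have s0 := hS x.Dn Q0 x.Gd (ee x) (ex _ Q0 (fun p => Option.some_ne_none p) a1 a2 a3 a4 a5)
    fun A hA => by
      obtain ⟨n, b, hb, rfl⟩ := (a3 A).1 hA
      choose p hp using fun i => Option.ne_none_iff_exists'.1 (hb i)
      exact ⟨n, fun i => (p i).B, fun i => (lb_fld (p i)).1, fun f v hf =>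
        Finset.sum_congr rfl fun i _ => by rw [hp, eq _ f v hf]⟩
  have enl : IsEnl Q0 Q1 := ⟨Subtype.ext (b1.trans a1.symm), b2.trans a2.symm,
    fun A hA => (b3 A).2 (((a3 A).1 hA).imp fun n h => h.imp fun b h => ⟨fun _ => trivial, h.2⟩),
    fun A hA => (b4 A).2 (((a4 A).1 hA).imp_left fun h => h.imp fun n h => h.imp fun b h =>
      ⟨fun _ => trivial, h.2⟩)⟩
  refine ⟨x.Dn, Q1, x.Gd, ee x, x.o none, ex _ Q1 (fun _ => trivial) b1 b2 b3 b4 b5,
    afw_row t E w F b1 b3, H746.isStress_enl enl s0,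
    ⟨(b4 _).2 ⟨Fin94.fs_one trivial, fun f v hf => Subtype.ext ?_⟩, F.herm none, ?_⟩, ?_,
    fun A hA => ?_⟩
  · refine (Fin94.par t.sg V' none hf v).trans ?_
    rw [gd]
    exact one_smul _ _
  · intro s L a f v hs hL hf
    apply Subtype.ext
    have := V'.cov none ⟨⟨s, L, a, hs, hL⟩, false⟩ 1 (fun _ => ((s ^ 2 : ℝ) : ℂ)) (fun _ => none) f v
      (x.Ud s L a v) (fun g hg => by
        rw [Fin.sum_univ_one, Complex.conj_ofReal]
        exact c.hl.cov s L a g hs hL hg) hf (ud s L a v hs hL)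
    rw [b2, this, Submodule.coe_smul, ud _ _ _ _ hs hL, Fin.sum_univ_one,
      show (4 - 2 : ℝ) = (2 : ℕ) by norm_num, Real.rpow_natCast]
    rfl
  · have hc : ∀ f v, In Set.univ f →
        GF.tr (fun m n => ee x (c.T m n)) f v = (3 : ℂ) • x.o none (box f) v := by
      intro f v hf
      let ι := Option (Σ m : Ix, Fin (H.Fin2.dec c (c.T m m)).1)
      let κ : ι → ℂ := fun i => i.elim (-3) fun j => eta j.1
      let b : ι → H.Lab c := fun i =>
        i.elim none fun j => some ((H.Fin2.dec c (c.T j.1 j.1)).2 j.2)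
      let g : ι → Fn := fun i => i.elim (box f) fun _ => f
      let e := (Fintype.equivFin ι).symm
      have h1 : x.φ none = c.l := rfl
      have z := V'.zero _ (fun i => κ (e i)) (fun i => b (e i)) (fun i => g (e i)) v
        (fun i => by
          cases h : e i with
          | none => exact Ap.in_box hf
          | some j => exact hf) (by
          rw [e.sum_comp fun i => κ i • x.φ (b i) (g i), Fintype.sum_option, Fintype.sum_sigma]
          simp only [κ, b, g, Option.elim, h1, neg_smul, c.hl.trace f hf.1, GF.tr, coe_sum,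
            Completion.coe_smul, ← Finset.smul_sum]
          rw [neg_add_eq_zero]
          refine Finset.sum_congr rfl fun m _ => congrArg _ ?_
          rw [sp (c.Q.bose_fld _ (c.hT.bose m m)) f _ hf.1, coe_sum]
          exact Finset.sum_congr rfl fun i _ => ((h2 _).2.2.2 f hf.1).1.symm)
      rw [e.sum_comp fun i => κ i • x.o (b i) (g i) v, Fintype.sum_option, Fintype.sum_sigma] at z
      simp only [κ, b, g, Option.elim, neg_smul, ← Finset.smul_sum] at z
      exact (neg_add_eq_zero.1 z).symm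
    rintro _ v ⟨f, rfl⟩
    obtain ⟨P, hP⟩ := box_clm
    obtain ⟨-, u, -, -, u2, -, u4⟩ := ST.exists_cut f
    have c1 : Continuous fun g : Sch => GF.tr (fun m n => ee x (c.T m n)) (ev g) v :=
      continuous_finset_sum _ fun m _ =>
        (continuous_finset_sum _ fun i _ =>
          F.cont (some ((H.Fin2.dec c (c.T m m)).2 i)) v).const_smul (eta m : ℂ)
    have c2 : Continuous fun g : Sch => (3 : ℂ) • x.o none (box (ev g)) v := by
      simp only [← hP]
      exact ((F.cont none v).comp P.continuous).const_smul (3 : ℂ)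
    exact tendsto_nhds_unique ((c1.tendsto f).comp u4) (((c2.tendsto f).comp u4).congr
      fun n => (hc _ v ⟨⟨u n, rfl⟩, u2 n, Set.subset_univ _⟩).symm)
  · obtain ⟨n, b, -, rfl⟩ := (b3 A).1 hA
    refine ⟨n, fun i => x.o (b i), fun i => ?_, fun _ _ _ => rfl⟩
    rcases hb : b i with _ | p
    · exact Or.inl (by simp only [hb])
    · exact Or.inr ⟨p.B, (lb_fld p).1, fun f v hf => by simp only [hb]; exact eq p f v hf⟩

end

end Vale.Agent.P352X.EG.NG
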